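import Vale.Agent.P165.Gladkov.Basic

/-!
# The three point inequality: the induction over the exploration
-/

namespace Vale.Agent.P165.Gladkov

open Finset FF

variable {V : Type} [DecidableEq V]

/-- The probability of hitting the stack. -/
noncomputable def hitP (E : Finset (Sym2 V)) (p : ℝ) (π : List V) (t : V) : ℝ :=
  avg E p fun η => ind (Hit η π t)

/-- The probability that both targets hit the stack. -/
noncomputable def bothP (E : Finset (Sym2 V)) (p : ℝ) (π : List V) (b c : V) : ℝ :=
  avg E p fun η => ind (Hit η π b ∧ Hit η π c)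

/-- The probability of a split in two independent configurations. -/
noncomputable def splitP (E : Finset (Sym2 V)) (p : ℝ) (π : List V) (a b c : V) : ℝ :=
  avg E p fun η => avg E p fun η' => ind (Split π a b c η η')

variable {E : Finset (Sym2 V)} {p : ℝ}

theorem hitP_nonneg (h0 : 0 ≤ p) (h1 : p ≤ 1) (π : List V) (t : V) : 0 ≤ hitP E p π t :=
  avg_nonneg _ h0 h1 fun _ _ => ind_nonneg _

theorem splitP_nonneg (h0 : 0 ≤ p) (h1 : p ≤ 1) (π : List V) (a b c : V) :
    0 ≤ splitP E p π a b c :=
  avg_nonneg _ h0 h1 fun _ _ => avg_nonneg _ h0 h1 fun _ _ => ind_nonneg _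

/-- At a target. -/
theorem sq_hitP_le (h0 : 0 ≤ p) (h1 : p ≤ 1) {π : List V} {a b c : V}
    (ha : π.getLast? = some a) (hb : π.head? = some b) :
    hitP E p π c ^ 2 ≤ 2 * splitP E p π a b c := by
  have e1 : hitP E p π c ^ 2 =
      avg E p fun η => avg E p fun η' => ind (Hit η π c) * ind (Hit η' π c) := by
    simp only [avg_mul]
    rw [sq]
    conv_rhs => arg 3; ext η; rw [mul_comm]
    rw [avg_mul]
    rfl
  have e2 : splitP E p π a b c = avg E p fun η => avg E p fun η' => ind (Split π a b c η' η) := by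
    simp only [splitP, avg, mul_sum]
    rw [sum_comm]
    exact sum_congr rfl fun _ _ => sum_congr rfl fun _ _ => by ring
  rw [e1, two_mul]
  nth_rewrite 2 [e2]
  rw [splitP, ← avg_add]
  refine avg_mono E h0 h1 fun η _ => ?_
  rw [← avg_add]
  refine avg_mono E h0 h1 fun η' _ => ?_
  by_cases h : Hit η π c ∧ Hit η' π c
  · have hh : ind (Hit η π c) * ind (Hit η' π c) = 1 := by simp [ind, h.1, h.2]
    rw [hh]
    rcases split_terminal ha hb h.1 h.2 with s | s <;>
      have : ind (Split π a b c _ _) = 1 := if_pos s <;>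
      linarith [ind_nonneg (Split π a b c η η'), ind_nonneg (Split π a b c η' η)]
  · have hh : ind (Hit η π c) * ind (Hit η' π c) = 0 := by
      rcases not_and_or.1 h with h | h <;> simp [ind, h]
    rw [hh]
    exact add_nonneg (ind_nonneg _) (ind_nonneg _)

theorem hitP_step {v w : V} {π : List V} (he : s(v, w) ∈ E) (t : V) :
    hitP E p (v :: π) t = (1 - p) * hitP (E.erase s(v, w)) p (v :: π) t +
      p * hitP (E.erase s(v, w)) p (w :: v :: π) t := by
  unfold hitP
  nth_rewrite 1 [← insert_erase he]
  rw [avg_insert (notMem_erase _ _)]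
  simp only [hit_push]

theorem bothP_step {v w : V} {π : List V} (he : s(v, w) ∈ E) (b c : V) :
    bothP E p (v :: π) b c = (1 - p) * bothP (E.erase s(v, w)) p (v :: π) b c +
      p * bothP (E.erase s(v, w)) p (w :: v :: π) b c := by
  unfold bothP
  nth_rewrite 1 [← insert_erase he]
  rw [avg_insert (notMem_erase _ _)]
  simp only [hit_push]

/-- Doubling one shared edge. -/
theorem splitP_step (h0 : 0 ≤ p) (h1 : p ≤ 1) {v w : V} {π : List V} (he : s(v, w) ∈ E)
    (a b c : V) :
    (1 - p) * splitP (E.erase s(v, w)) p (v :: π) a b c +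
      p * splitP (E.erase s(v, w)) p (w :: v :: π) a b c ≤ splitP E p (v :: π) a b c := by
  set E' := E.erase s(v, w)
  conv_rhs => rw [splitP, ← insert_erase he]
  simp only [splitP, avg_insert (notMem_erase _ _), avg_add, avg_mul]
  simp only [← avg_mul, ← avg_add]
  refine avg_mono E' h0 h1 fun η _ => avg_mono E' h0 h1 fun η' _ => ?_
  set x := s(v, w)
  set S := fun θ θ' => ind (Split (v :: π) a b c θ θ')
  have hS : ∀ θ θ', 0 ≤ S θ θ' := fun _ _ => ind_nonneg _
  have m1 : S η η' ≤ S (insert x η) η' :=
    ind_mono (split_mono (subset_insert _ _) le_rfl)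
  have m2 : S η η' ≤ S η (insert x η') :=
    ind_mono (split_mono le_rfl (subset_insert _ _))
  have m3 : S (insert x η) η' ≤ S (insert x η) (insert x η') :=
    ind_mono (split_mono le_rfl (subset_insert _ _))
  have m4 : S η (insert x η') ≤ S (insert x η) (insert x η') :=
    ind_mono (split_mono (subset_insert _ _) le_rfl)
  have m5 : ind (Split (w :: v :: π) a b c η η') + S η η' ≤
      S (insert x η) η' + S η (insert x η') := by
    by_cases h : Split (w :: v :: π) a b c η η'
    · rw [show ind (Split (w :: v :: π) a b c η η') = 1 from if_pos h]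
      rcases split_push h with s | s
      · have : S (insert x η) η' = 1 := if_pos s
        linarith
      · have : S η (insert x η') = 1 := if_pos s
        linarith
    · rw [show ind (Split (w :: v :: π) a b c η η') = 0 from if_neg h]
      linarith [hS η (insert x η')]
  have m6 : ind (Split (w :: v :: π) a b c η η') ≤ S (insert x η) (insert x η') :=
    ind_mono fun h => (split_push h).elim (split_mono le_rfl (subset_insert _ _))
      (split_mono (subset_insert _ _) le_rfl)
  show (1 - p) * S η η' + p * ind (Split (w :: v :: π) a b c η η') ≤ _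
  nlinarith [mul_le_mul_of_nonneg_left m5 (mul_nonneg h0 (sub_nonneg.2 h1)),
    mul_le_mul_of_nonneg_left m6 (mul_nonneg h0 h0)]

/-- Cauchy–Schwarz for one step. -/
theorem sqrt_step (h0 : 0 ≤ p) (h1 : p ≤ 1) {A₀ A₁ B₀ B₁ B : ℝ} (a0 : 0 ≤ A₀) (a1 : 0 ≤ A₁)
    (b0 : 0 ≤ B₀) (b1 : 0 ≤ B₁) (hB : (1 - p) * B₀ + p * B₁ ≤ B) :
    (1 - p) * √(2 * A₀ * B₀) + p * √(2 * A₁ * B₁) ≤ √(2 * ((1 - p) * A₀ + p * A₁) * B) := by
  have q0 := sub_nonneg.2 h1
  refine le_trans ?_ (Real.sqrt_le_sqrt (mul_le_mul_of_nonneg_left hB (by positivity)))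
  refine Real.le_sqrt_of_sq_le ?_
  have s0 := Real.sq_sqrt (show 0 ≤ 2 * A₀ * B₀ by positivity)
  have s1 := Real.sq_sqrt (show 0 ≤ 2 * A₁ * B₁ by positivity)
  have hx := sq_nonneg (√(A₀ * B₁) - √(A₁ * B₀))
  have t0 := Real.sq_sqrt (show 0 ≤ A₀ * B₁ by positivity)
  have t1 := Real.sq_sqrt (show 0 ≤ A₁ * B₀ by positivity)
  have e : √(2 * A₀ * B₀) * √(2 * A₁ * B₁) = 2 * (√(A₀ * B₁) * √(A₁ * B₀)) := by
    rw [← Real.sqrt_mul (by positivity), ← Real.sqrt_mul (by positivity),
      show 2 * A₀ * B₀ * (2 * A₁ * B₁) = 2 ^ 2 * (A₀ * B₁ * (A₁ * B₀)) by ring,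
      Real.sqrt_mul (by norm_num), Real.sqrt_sq (by norm_num)]
  have hm := mul_le_mul_of_nonneg_left
    (show √(2 * A₀ * B₀) * √(2 * A₁ * B₁) ≤ A₀ * B₁ + A₁ * B₀ by rw [e]; nlinarith)
    (mul_nonneg q0 h0)
  linear_combination 2 * hm + (1 - p) ^ 2 * s0 + p ^ 2 * s1

/-- The bound along the exploration. -/
theorem bothP_le (h0 : 0 ≤ p) (h1 : p ≤ 1) (a b c : V) :
    ∀ (n : ℕ) (E : Finset (Sym2 V)), E.card = n → ∀ π : List V, π.getLast? = some a →
      bothP E p π b c ≤
        √(2 * hitP E p π b * splitP E p π a b c) + √(2 * hitP E p π c * splitP E p π a c b) := by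
  intro n
  induction n using Nat.strong_induction_on with
  | _ n ihn =>
    intro E hE π
    induction π with
    | nil => simp
    | cons v π ihπ =>
      intro ha
      have s1 := Real.sqrt_nonneg (2 * hitP E p (v :: π) b * splitP E p (v :: π) a b c)
      have s2 := Real.sqrt_nonneg (2 * hitP E p (v :: π) c * splitP E p (v :: π) a c b)
      by_cases hb : v = b
      · subst hb
        have hS : hitP E p (v :: π) v = 1 :=
          (avg_congr E p fun η _ => if_pos ⟨v, List.mem_cons_self .., .rfl⟩).trans (avg_one E p)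
        have hle : bothP E p (v :: π) v c ≤ hitP E p (v :: π) c :=
          avg_mono E h0 h1 fun η _ => ind_mono And.right
        have := Real.le_sqrt_of_sq_le (sq_hitP_le (E := E) (c := c) h0 h1 ha (List.head?_cons ..))
        rw [hS, mul_one] at s1 ⊢
        linarith
      by_cases hc : v = c
      · subst hc
        have hS : hitP E p (v :: π) v = 1 :=
          (avg_congr E p fun η _ => if_pos ⟨v, List.mem_cons_self .., .rfl⟩).trans (avg_one E p)
        have hle : bothP E p (v :: π) b v ≤ hitP E p (v :: π) b :=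
          avg_mono E h0 h1 fun η _ => ind_mono And.left
        have := Real.le_sqrt_of_sq_le (sq_hitP_le (E := E) (c := b) h0 h1 ha (List.head?_cons ..))
        rw [hS, mul_one] at s2 ⊢
        linarith
      by_cases hfr : ∃ w, s(v, w) ∈ E ∧ w ∉ v :: π
      · obtain ⟨w, he, -⟩ := hfr
        have hlt : (E.erase s(v, w)).card < n := hE ▸ card_erase_lt_of_mem he
        have i0 := ihn _ hlt _ rfl (v :: π) ha
        have i1 := ihn _ hlt _ rfl (w :: v :: π) (by rw [List.getLast?_cons_cons]; exact ha)
        have hn := fun π t => hitP_nonneg (E := E.erase s(v, w)) h0 h1 π t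
        have k1 := sqrt_step h0 h1 (hn (v :: π) b) (hn (w :: v :: π) b)
          (splitP_nonneg h0 h1 _ a b c) (splitP_nonneg h0 h1 _ a b c)
          (splitP_step h0 h1 (π := π) he a b c)
        have k2 := sqrt_step h0 h1 (hn (v :: π) c) (hn (w :: v :: π) c)
          (splitP_nonneg h0 h1 _ a c b) (splitP_nonneg h0 h1 _ a c b)
          (splitP_step h0 h1 (π := π) he a c b)
        rw [← hitP_step he] at k1 k2
        rw [bothP_step he]
        nlinarith [mul_le_mul_of_nonneg_left i0 (sub_nonneg.2 h1), mul_le_mul_of_nonneg_left i1 h0]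
      · push_neg at hfr
        cases π with
        | nil =>
          have h : bothP E p [v] b c ≤ 0 := by
            refine le_trans (avg_mono E h0 h1 (g := fun _ => 0) fun η hη => le_of_eq (if_neg ?_))
              (by simp [avg])
            rintro ⟨hh, -⟩
            obtain ⟨u, hu, -⟩ := hit_pop hη hfr (Ne.symm hb) hh
            simp at hu
          linarith
        | cons v' π =>
          have hha : (v' :: π).getLast? = some a := by rwa [List.getLast?_cons_cons] at ha
          have hit_eq : ∀ η ⊆ E, ∀ t, t ≠ v → (Hit η (v :: v' :: π) t ↔ Hit η (v' :: π) t) :=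
            fun η hη t ht => ⟨hit_pop hη hfr ht,
              fun ⟨u, hu, h⟩ => ⟨u, List.mem_cons_of_mem _ hu, h⟩⟩
          have e0 : bothP E p (v :: v' :: π) b c = bothP E p (v' :: π) b c :=
            avg_congr E p fun η hη => by
              rw [hit_eq η hη b (Ne.symm hb), hit_eq η hη c (Ne.symm hc)]
          have eb : hitP E p (v :: v' :: π) b = hitP E p (v' :: π) b :=
            avg_congr E p fun η hη => by rw [hit_eq η hη b (Ne.symm hb)]
          have ec : hitP E p (v :: v' :: π) c = hitP E p (v' :: π) c :=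
            avg_congr E p fun η hη => by rw [hit_eq η hη c (Ne.symm hc)]
          have hs : ∀ b c, splitP E p (v' :: π) a b c ≤ splitP E p (v :: v' :: π) a b c :=
            fun b c => avg_mono E h0 h1 fun η _ => avg_mono E h0 h1 fun η' _ =>
              ind_mono split_pop
          rw [e0, eb, ec]
          refine (ihπ hha).trans (add_le_add ?_ ?_) <;>
            exact Real.sqrt_le_sqrt (mul_le_mul_of_nonneg_left (hs _ _)
              (mul_nonneg zero_le_two (hitP_nonneg h0 h1 _ _)))

/-- The two point probability. -/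
noncomputable def tau (E : Finset (Sym2 V)) (p : ℝ) (x y : V) : ℝ := avg E p fun η => ind (Rch η x y)

theorem tau_comm (E : Finset (Sym2 V)) (p : ℝ) (x y : V) : tau E p x y = tau E p y x :=
  avg_congr E p fun η _ => by rw [show Rch η x y ↔ Rch η y x from SimpleGraph.reachable_comm]

theorem splitP_singleton (h0 : 0 ≤ p) (h1 : p ≤ 1) (a b c : V) :
    splitP E p [a] a b c ≤ tau E p c a * tau E p c b := by
  have e : tau E p c a * tau E p c b =
      avg E p fun η => avg E p fun η' => ind (Rch η c a) * ind (Rch η' c b) := by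
    simp only [avg_mul]
    conv_rhs => arg 3; ext η; rw [mul_comm]
    rw [avg_mul, mul_comm]
    rfl
  rw [e]
  refine avg_mono E h0 h1 fun η _ => avg_mono E h0 h1 fun η' _ => ?_
  by_cases h : Split [a] a b c η η'
  · obtain ⟨l₂, u, l₁, e, h₁, h₂⟩ := h
    obtain ⟨rfl, rfl, rfl⟩ : l₂ = [] ∧ a = u ∧ l₁ = [] := by
      cases l₂ with
      | nil => simpa [eq_comm] using e
      | cons x l => simp at e
    simp only [ed, union_empty, List.nil_append] at h₁ h₂
    have : ind (Rch η c a) * ind (Rch η' c b) = 1 := by simp [ind, h₁, h₂]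
    rw [this]
    exact ind_le_one _
  · rw [show ind (Split [a] a b c η η') = 0 from if_neg h]
    exact mul_nonneg (ind_nonneg _) (ind_nonneg _)

/-- Three vertices in one cluster: the three point inequality, with the constant `8`. -/
theorem three_point (E : Finset (Sym2 V)) {p : ℝ} (h0 : 0 ≤ p) (h1 : p ≤ 1) (a b c : V) :
    (avg E p fun η => ind (Rch η a b ∧ Rch η a c)) ^ 2 ≤
      8 * (tau E p a b * tau E p b c * tau E p a c) := by
  set x := tau E p a b
  set y := tau E p b c
  set z := tau E p a c
  have hh : ∀ t, hitP E p [a] t = tau E p a t := fun t => avg_congr E p fun η _ => by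
    rw [show Hit η [a] t ↔ Rch η a t from by simp [Hit, SimpleGraph.reachable_comm]]
  have hb : bothP E p [a] b c = avg E p fun η => ind (Rch η a b ∧ Rch η a c) :=
    avg_congr E p fun η _ => by
      rw [show (Hit η [a] b ∧ Hit η [a] c) ↔ (Rch η a b ∧ Rch η a c) from by
        simp [Hit, SimpleGraph.reachable_comm]]
  have tn : ∀ u v, 0 ≤ tau E p u v := fun _ _ => avg_nonneg _ h0 h1 fun _ _ => ind_nonneg _
  have hP : 0 ≤ 2 * (x * y * z) := mul_nonneg zero_le_two
    (mul_nonneg (mul_nonneg (tn _ _) (tn _ _)) (tn _ _))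
  have k1 : 2 * hitP E p [a] b * splitP E p [a] a b c ≤ 2 * (x * y * z) := by
    have := mul_le_mul_of_nonneg_left (splitP_singleton (E := E) h0 h1 a b c)
      (mul_nonneg zero_le_two (tn a b))
    rw [tau_comm E p c a, tau_comm E p c b] at this
    rw [hh]
    linarith
  have k2 : 2 * hitP E p [a] c * splitP E p [a] a c b ≤ 2 * (x * y * z) := by
    have := mul_le_mul_of_nonneg_left (splitP_singleton (E := E) h0 h1 a c b)
      (mul_nonneg zero_le_two (tn a c))
    rw [tau_comm E p b a] at this
    rw [hh]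
    linarith
  have h := (bothP_le h0 h1 a b c E.card E rfl [a] rfl).trans
    (add_le_add (Real.sqrt_le_sqrt k1) (Real.sqrt_le_sqrt k2))
  rw [hb] at h
  have h2 := pow_le_pow_left₀ (avg_nonneg _ h0 h1 fun _ _ => ind_nonneg _) h 2
  have := Real.sq_sqrt hP
  nlinarith

end Vale.Agent.P165.Gladkov
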