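import Vale.Agent.P165.FF.BK

/-!
# The three point inequality

In percolation on a finite set of edges the square of the probability that three vertices share a
cluster is at most `8` times the product of the three two point probabilities (Gladkov). The proof
explores from `a` along a stack `π` until `b` or `c` is on top and doubles the shared edges one at
a time.
-/

namespace Vale.Agent.P165.Gladkov

open Finset FF

variable {V : Type}

/-- Two vertices are joined by open edges. -/
abbrev Rch (η : Finset (Sym2 V)) (x y : V) : Prop :=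
  (SimpleGraph.fromEdgeSet (η : Set (Sym2 V))).Reachable x y

/-- A vertex is joined to the stack. -/
def Hit (η : Finset (Sym2 V)) (π : List V) (x : V) : Prop := ∃ u ∈ π, Rch η x u

theorem rch_mono {η η' : Finset (Sym2 V)} (h : η ⊆ η') {x y : V} (hxy : Rch η x y) :
    Rch η' x y :=
  hxy.mono (SimpleGraph.fromEdgeSet_mono (coe_subset.2 h))

theorem rch_edge {η : Finset (Sym2 V)} {x y : V} (h : s(x, y) ∈ η) : Rch η x y := by
  by_cases hxy : x = y
  · subst hxy; exact .rfl
  · exact SimpleGraph.Adj.reachable ((SimpleGraph.fromEdgeSet_adj _).2 ⟨mem_coe.2 h, hxy⟩)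

variable [DecidableEq V]

/-- The edges along a list. -/
def ed : List V → Finset (Sym2 V)
  | [] => ∅
  | [_] => ∅
  | x :: y :: l => insert s(x, y) (ed (y :: l))

theorem ed_cons_mono (x : V) (l : List V) : ed l ⊆ ed (x :: l) := by
  cases l with
  | nil => simp [ed]
  | cons y l => exact subset_insert _ _

/-- A list is connected by its edges. -/
theorem rch_ed : ∀ {l : List V} {x y : V}, x ∈ l → y ∈ l → Rch (ed l) x y := by
  suffices h : ∀ (l : List V) (z : V), ∀ x ∈ z :: l, Rch (ed (z :: l)) x z by
    intro l x y hx hy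
    cases l with
    | nil => simp at hx
    | cons z l => exact (h l z x hx).trans (h l z y hy).symm
  intro l
  induction l with
  | nil => intro z x hx; rw [List.mem_singleton] at hx; subst hx; exact .rfl
  | cons w l ih =>
    intro z x hx
    rcases List.mem_cons.1 hx with rfl | hx
    · exact .rfl
    · exact (rch_mono (subset_insert _ _) (ih w x hx)).trans
        (rch_edge (mem_insert_self _ _)).symm

/-- The stack splits at `u`: `c` reaches `a` through the lower part and `b` through the upper. -/
def Split (π : List V) (a b c : V) (η η' : Finset (Sym2 V)) : Prop :=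
  ∃ (l₂ : List V) (u : V) (l₁ : List V), π = l₂ ++ u :: l₁ ∧
    Rch (η ∪ ed (u :: l₁)) c a ∧ Rch (η' ∪ ed (l₂ ++ [u])) c b

theorem split_mono {π : List V} {a b c : V} {η₁ η₂ η₁' η₂' : Finset (Sym2 V)} (h : η₁ ⊆ η₂)
    (h' : η₁' ⊆ η₂') (hs : Split π a b c η₁ η₁') : Split π a b c η₂ η₂' := by
  obtain ⟨l₂, u, l₁, e, h₁, h₂⟩ := hs
  exact ⟨l₂, u, l₁, e, rch_mono (union_subset_union h le_rfl) h₁,
    rch_mono (union_subset_union h' le_rfl) h₂⟩

theorem split_pop {v : V} {π : List V} {a b c : V} {η η' : Finset (Sym2 V)}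
    (hs : Split π a b c η η') : Split (v :: π) a b c η η' := by
  obtain ⟨l₂, u, l₁, e, h₁, h₂⟩ := hs
  exact ⟨v :: l₂, u, l₁, by rw [e]; rfl, h₁,
    rch_mono (union_subset_union le_rfl (ed_cons_mono _ _)) h₂⟩

/-- An open edge at the top is used by one side only. -/
theorem split_push {v w : V} {π : List V} {a b c : V} {η η' : Finset (Sym2 V)}
    (hs : Split (w :: v :: π) a b c η η') :
    Split (v :: π) a b c (insert s(v, w) η) η' ∨ Split (v :: π) a b c η (insert s(v, w) η') := by
  obtain ⟨l₂, u, l₁, e, h₁, h₂⟩ := hs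
  cases l₂ with
  | nil =>
    obtain ⟨rfl, rfl⟩ : w = u ∧ v :: π = l₁ := by simpa using e
    refine .inl ⟨[], v, π, rfl, rch_mono ?_ h₁, rch_mono ?_ h₂⟩
    · rw [show ed (w :: v :: π) = insert s(w, v) (ed (v :: π)) from rfl, Sym2.eq_swap,
        union_insert, insert_union]
    · simp [ed]
  | cons x l₂ =>
    obtain ⟨rfl, e'⟩ : w = x ∧ v :: π = l₂ ++ u :: l₁ := by simpa using e
    refine .inr ⟨l₂, u, l₁, e', h₁, rch_mono ?_ h₂⟩
    obtain ⟨m, hm⟩ : ∃ m, l₂ ++ [u] = v :: m := by
      cases l₂ with
      | nil => obtain ⟨rfl, -⟩ : v = u ∧ π = l₁ := by simpa using e'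
               exact ⟨[], rfl⟩
      | cons y l₂ => obtain ⟨rfl, -⟩ : v = y ∧ π = l₂ ++ u :: l₁ := by simpa using e'
                     exact ⟨l₂ ++ [u], rfl⟩
    rw [List.cons_append, hm, show ed (w :: v :: m) = insert s(w, v) (ed (v :: m)) from rfl,
      Sym2.eq_swap, union_insert, insert_union]

/-- At a target two hits give a split in one of the two orders. -/
theorem split_terminal {π : List V} {a b c : V} {η η' : Finset (Sym2 V)}
    (ha : π.getLast? = some a) (hb : π.head? = some b) (h : Hit η π c) (h' : Hit η' π c) :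
    Split π a b c η η' ∨ Split π a b c η' η := by
  obtain ⟨u, hu, hcu⟩ := h
  obtain ⟨u', hu', hcu'⟩ := h'
  obtain ⟨A, B, rfl⟩ := List.append_of_mem hu
  have key : ∀ (A B : List V) (u u' : V) (η η' : Finset (Sym2 V)),
      (A ++ u :: B).getLast? = some a → (A ++ u :: B).head? = some b →
      Rch η c u → Rch η' c u' → u' ∈ A ++ [u] → Split (A ++ u :: B) a b c η η' := by
    intro A B u u' η η' ha hb hcu hcu' hmem
    refine ⟨A, u, B, rfl, (rch_mono subset_union_left hcu).trans
      (rch_mono subset_union_right (rch_ed (List.mem_cons_self ..) ?_)),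
      (rch_mono subset_union_left hcu').trans
      (rch_mono subset_union_right (rch_ed hmem ?_))⟩
    · rw [List.getLast?_append_cons] at ha
      exact List.mem_of_getLast? ha
    · apply List.mem_of_head?
      cases A <;> simpa using hb
  rcases List.mem_append.1 hu' with hA | hB
  · exact .inl (key A B u u' η η' ha hb hcu hcu' (List.mem_append_left _ hA))
  · rcases List.mem_cons.1 hB with rfl | hB
    · exact .inl (key A B _ _ η η' ha hb hcu hcu' (by simp))
    · obtain ⟨B₁, B₂, rfl⟩ := List.append_of_mem hB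
      have e : A ++ u :: (B₁ ++ u' :: B₂) = (A ++ u :: B₁) ++ u' :: B₂ := by simp
      rw [e] at ha hb ⊢
      exact .inr (key _ B₂ u' u η' η ha hb hcu' hcu (by simp))

omit [DecidableEq V] in
/-- Without an edge leaving the stack at its top, the top can be removed. -/
theorem hit_pop {E η : Finset (Sym2 V)} (hη : η ⊆ E) {v : V} {π : List V}
    (hfr : ∀ w, s(v, w) ∈ E → w ∈ v :: π) {t : V} (ht : t ≠ v) (h : Hit η (v :: π) t) :
    Hit η π t := by
  obtain ⟨u, hu, ⟨w⟩⟩ := h
  induction w with
  | nil =>
    rcases List.mem_cons.1 hu with rfl | hu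
    · exact absurd rfl ht
    · exact ⟨_, hu, .rfl⟩
  | @cons x y z hxy w ih =>
    have hxy' := (SimpleGraph.fromEdgeSet_adj _).1 hxy
    by_cases hy : y = v
    · subst hy
      have hx := hfr x (Sym2.eq_swap ▸ hη (mem_coe.1 hxy'.1))
      rcases List.mem_cons.1 hx with rfl | hx
      · exact absurd rfl ht
      · exact ⟨x, hx, .rfl⟩
    · obtain ⟨u', hu', h'⟩ := ih hy hu
      exact ⟨u', hu', (SimpleGraph.Adj.reachable hxy).trans h'⟩

/-- An open edge at the top extends the stack. -/
theorem hit_push {η : Finset (Sym2 V)} {v w : V} {π : List V} {t : V} :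
    Hit (insert s(v, w) η) (v :: π) t ↔ Hit η (w :: v :: π) t := by
  constructor
  · rintro ⟨u, hu, ⟨q⟩⟩
    induction q with
    | nil => exact ⟨_, List.mem_cons_of_mem _ hu, .rfl⟩
    | @cons x y z hxy q ih =>
      obtain ⟨hmem, hne⟩ := (SimpleGraph.fromEdgeSet_adj _).1 hxy
      rcases mem_insert.1 (mem_coe.1 hmem) with he | he
      · rcases Sym2.eq_iff.1 he with ⟨rfl, -⟩ | ⟨rfl, -⟩
        · exact ⟨x, by simp, .rfl⟩
        · exact ⟨x, by simp, .rfl⟩
      · obtain ⟨u', hu', h'⟩ := ih hu
        exact ⟨u', hu', (rch_edge he).trans h'⟩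
  · rintro ⟨u, hu, h⟩
    rcases List.mem_cons.1 hu with rfl | hu
    · exact ⟨v, List.mem_cons_self .., (rch_mono (subset_insert _ _) h).trans
        (rch_edge (mem_insert_self _ _)).symm⟩
    · exact ⟨u, hu, rch_mono (subset_insert _ _) h⟩

end Vale.Agent.P165.Gladkov
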